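import Claimed.Agent.R152.B.Cut.Potential

/-!
# Row 152, module B, sec. 3: merges (definitions for the whole section + basic lemmas)

Blueprint: `docs/R152_B.md` (branch `helper22`), sec. 3.   Skeleton: helper578; PORTED by helper97 to the definitions of
`Cut/Defs.lean` that are on main (helper283's version): classical decidability, `mrg`/`rep` of `Cut/Defs.lean`, `Asc` (not `Hol`),
`Flat o φ M` (not `LocFlat o M φ`); `Exp v w` does NOT contain `IsPart v` (use `K_isPart`, `Exp.isPart`, `Exp.isPart_left`).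
A MERGE of `w`: `m = (a; b, c)`, `b, c ∈ w`, `Sp a b c`;  `w_m = m.low = mrg w a b c`.
All `Exp` facts needed in sec. 3 come from `exp_mrg` + `mem_mrg_of_mem` + `mrg_comm`.
Statements and definitions are FROZEN; auxiliary lemmas are welcome.
-/

set_option autoImplicit false
open scoped Classical

namespace Claimed.Agent.R152.B
namespace CutSys

universe u v w
variable {TT : Type u} {X : Type v} {C : CutSys TT X}

theorem mrg_insert {R : Finset TT} {a b c : TT} (hb : b ∉ R) (hc : c ∉ R) (hbc : b ≠ c) :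
    mrg (insert b (insert c R)) a b c = insert a R := by
  ext t
  simp only [mem_mrg, Finset.mem_insert]
  constructor
  · rintro (h | ⟨h1, h2, h3 | h3 | h3⟩)
    · exact Or.inl h
    · exact absurd h3 h2
    · exact absurd h3 h1
    · exact Or.inr h3
  · rintro (h | h)
    · exact Or.inl h
    · exact Or.inr ⟨fun e => hc (e ▸ h), fun e => hb (e ▸ h), Or.inr (Or.inr h)⟩

theorem mem_mrg_of_mem {w : Finset TT} {a b c t : TT} (ht : t ∈ w) (hb : t ≠ b) (hc : t ≠ c) :
    t ∈ mrg w a b c :=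
  mem_mrg.2 (Or.inr ⟨hc, hb, ht⟩)

theorem mrg_comm {w : Finset TT} {a b c a' b' c' : TT} (h1 : a ≠ b') (h2 : a ≠ c')
    (h3 : a' ≠ b) (h4 : a' ≠ c) :
    mrg (mrg w a b c) a' b' c' = mrg (mrg w a' b' c') a b c := by
  ext t
  simp only [mem_mrg]
  constructor
  · rintro (h | ⟨k1, k2, h | ⟨k3, k4, k5⟩⟩)
    · exact Or.inr ⟨h ▸ h4, h ▸ h3, Or.inl h⟩
    · exact Or.inl h
    · exact Or.inr ⟨k3, k4, Or.inr ⟨k1, k2, k5⟩⟩
  · rintro (h | ⟨k1, k2, h | ⟨k3, k4, k5⟩⟩)
    · exact Or.inr ⟨h ▸ h2, h ▸ h1, Or.inl h⟩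
    · exact Or.inl h
    · exact Or.inr ⟨k3, k4, Or.inr ⟨k1, k2, k5⟩⟩

/-- 2.2 in terms of `mrg`. -/
theorem exp_mrg {w : Finset TT} {a b c : TT} (hw : C.IsPart w) (hb : b ∈ w) (hc : c ∈ w)
    (h : C.Sp a b c) : C.Exp (mrg w a b c) w :=
  hw.exp_mrg hb hc h

/-- The new tile of a merge is not a tile of the partition `w`. -/
theorem not_mem_of_sp {w : Finset TT} {a b c : TT} (hw : C.IsPart w) (hb : b ∈ w)
    (h : C.Sp a b c) : a ∉ w :=
  hw.sp_not_mem_parent hb h

variable (C) in
/-- A merge of `w`. -/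
@[ext] structure Merge (w : Finset TT) where
  a : TT
  b : TT
  c : TT
  hb : b ∈ w
  hc : c ∈ w
  sp : C.Sp a b c

namespace Merge

variable {w : Finset TT}

/-- `w_m` -/
noncomputable def low (m : C.Merge w) : Finset TT := mrg w m.a m.b m.c

/-- Disjoint merges. -/
def Disj (m m' : C.Merge w) : Prop := m.b ≠ m'.b ∧ m.b ≠ m'.c ∧ m.c ≠ m'.b ∧ m.c ≠ m'.c

/-- `w_{mm'}` -/
noncomputable def low2 (m m' : C.Merge w) : Finset TT := mrg (mrg w m.a m.b m.c) m'.a m'.b m'.c

theorem Disj.symm {m m' : C.Merge w} (h : m.Disj m') : m'.Disj m :=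
  ⟨h.1.symm, h.2.2.1.symm, h.2.1.symm, h.2.2.2.symm⟩

theorem exp_low (hw : C.IsPart w) (m : C.Merge w) : C.Exp m.low w :=
  exp_mrg hw m.hb m.hc m.sp

/-- A merge is determined by its lower vertex (`a` is the only tile of `m.low` not in `w`, `{b,c} = w \ m.low`, and the
order of `b, c` is determined by `sp_asymm`). -/
theorem low_injective (hw : C.IsPart w) {m m' : C.Merge w} (h : m.low = m'.low) : m = m' := by
  obtain ⟨a, b, c, hb, hc, hs⟩ := m
  obtain ⟨a', b', c', hb', hc', hs'⟩ := m'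
  have h : mrg w a b c = mrg w a' b' c' := h
  have ha : a ∉ w := not_mem_of_sp hw hb hs
  have haa : a = a' := by
    have h1 : a ∈ mrg w a' b' c' := h ▸ mem_mrg.2 (Or.inl rfl)
    rcases mem_mrg.1 h1 with e | ⟨_, _, e⟩
    · exact e
    · exact absurd e ha
  subst haa
  have key : ∀ t ∈ w, (t ≠ c ∧ t ≠ b) ↔ (t ≠ c' ∧ t ≠ b') := by
    intro t ht
    have hta : t ≠ a := fun e => ha (e ▸ ht)
    have e1 : t ∈ mrg w a b c ↔ (t ≠ c ∧ t ≠ b) := by
      rw [mem_mrg]
      exact ⟨fun hh => hh.elim (fun e => absurd e hta) (fun k => ⟨k.1, k.2.1⟩),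
        fun k => Or.inr ⟨k.1, k.2, ht⟩⟩
    have e2 : t ∈ mrg w a b' c' ↔ (t ≠ c' ∧ t ≠ b') := by
      rw [mem_mrg]
      exact ⟨fun hh => hh.elim (fun e => absurd e hta) (fun k => ⟨k.1, k.2.1⟩),
        fun k => Or.inr ⟨k.1, k.2, ht⟩⟩
    rw [← e1, ← e2, h]
  have hbc : b ≠ c := sp_ne hs
  have kb : b = c' ∨ b = b' := by
    by_contra hcon
    push Not at hcon
    exact ((key b hb).2 hcon).2 rfl
  have kc : c = c' ∨ c = b' := by
    by_contra hcon
    push Not at hcon
    exact ((key c hc).2 hcon).1 rfl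
  rcases kb with e | e
  · rcases kc with e' | e'
    · exact absurd (e.trans e'.symm) hbc
    · subst e e'
      exact absurd hs' (sp_asymm hs)
  · rcases kc with e' | e'
    · subst e e'
      rfl
    · exact absurd (e.trans e'.symm) hbc

theorem low2_comm (hw : C.IsPart w) {m m' : C.Merge w} (h : m.Disj m') :
    m.low2 m' = m'.low2 m := by
  have ha : m.a ∉ w := not_mem_of_sp hw m.hb m.sp
  have ha' : m'.a ∉ w := not_mem_of_sp hw m'.hb m'.sp
  exact mrg_comm (fun e => ha (e ▸ m'.hb)) (fun e => ha (e ▸ m'.hc))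
    (fun e => ha' (e ▸ m.hb)) (fun e => ha' (e ▸ m.hc))

theorem exp_low2 (hw : C.IsPart w) {m m' : C.Merge w} (h : m.Disj m') :
    C.Exp (m.low2 m') m.low ∧ C.Exp (m.low2 m') m'.low := by
  have aux : ∀ {m m' : C.Merge w}, m.Disj m' → C.Exp (m.low2 m') m.low := by
    intro m m' h
    exact exp_mrg (hw.isPart_mrg m.hb m.hc m.sp)
      (mem_mrg_of_mem m'.hb h.1.symm h.2.2.1.symm) (mem_mrg_of_mem m'.hc h.2.1.symm h.2.2.2.symm)
      m'.sp
  refine ⟨aux h, ?_⟩
  rw [low2_comm hw h]
  exact aux h.symm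

end Merge

/-- Every lower neighbour of `w` comes from a merge. -/
theorem exists_merge_of_exp {u w : Finset TT} (h : C.Exp u w) : ∃ m : C.Merge w, m.low = u := by
  obtain ⟨a, b, c, hb, hc, hs, rfl⟩ := h.exists_mrg
  exact ⟨⟨a, b, c, hb, hc, hs⟩, rfl⟩

/-- Spare pairs: a partition has a merge avoiding a given set `A` of tiles if `|A| + 2 ≤ |w|` (A3). -/
theorem exists_merge_avoid {w : Finset TT} (hw : C.IsPart w) (A : Finset TT)
    (h : A.card + 2 ≤ w.card) : ∃ m : C.Merge w, m.b ∉ A ∧ m.c ∉ A := by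
  have h1 : 1 < (w \ A).card := by
    have := Finset.le_card_sdiff A w
    omega
  obtain ⟨b, hb, c, hc, hbc⟩ := Finset.one_lt_card.1 h1
  rw [Finset.mem_sdiff] at hb hc
  obtain ⟨a, hs⟩ := C.merge (hw.disj b hb.1 c hc.1 hbc)
  exact ⟨⟨a, b, c, hb.1, hc.1, hs⟩, hb.2, hc.2⟩

/-- Given `k` merges and `2k+2 ≤ |w|` there is a merge disjoint from all of them. -/
theorem exists_disj {w : Finset TT} (hw : C.IsPart w) (l : List (C.Merge w))
    (h : 2 * l.length + 2 ≤ w.card) : ∃ mo : C.Merge w, ∀ m ∈ l, m.Disj mo := by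
  set A : Finset TT := (l.map (fun m => m.b)).toFinset ∪ (l.map (fun m => m.c)).toFinset with hA
  have hcard : A.card ≤ 2 * l.length := by
    have h1 := Finset.card_union_le (l.map (fun m => m.b)).toFinset (l.map (fun m => m.c)).toFinset
    have h2 := List.toFinset_card_le (l.map (fun m => m.b))
    have h3 := List.toFinset_card_le (l.map (fun m => m.c))
    rw [List.length_map] at h2 h3
    rw [hA]
    omega
  obtain ⟨mo, hb, hc⟩ := exists_merge_avoid hw A (by omega)
  refine ⟨mo, fun m hm => ?_⟩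
  have mb : m.b ∈ A :=
    Finset.mem_union_left _ (List.mem_toFinset.2 (List.mem_map.2 ⟨m, hm, rfl⟩))
  have mc : m.c ∈ A :=
    Finset.mem_union_right _ (List.mem_toFinset.2 (List.mem_map.2 ⟨m, hm, rfl⟩))
  exact ⟨fun e => hb (e ▸ mb), fun e => hc (e ▸ mb), fun e => hb (e ▸ mc), fun e => hc (e ▸ mc)⟩

variable {G : Type w} [Group G]

/-! ### ascending paths and coherence (the `Hol` calculus of the 578 skeleton, for `Asc`) -/

section asc
variable {φ φ' : Finset TT → Finset TT → G}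

theorem Asc.single {v w : Finset TT} (h : C.Exp v w) : C.Asc φ v w (φ v w) := by
  simpa using Asc.step (φ := φ) h (Asc.refl w)

theorem Asc.two {v x w : Finset TT} (h : C.Exp v x) (h' : C.Exp x w) :
    C.Asc φ v w (φ v x * φ x w) :=
  Asc.step h (Asc.single h')

theorem Asc.three {v x y w : Finset TT} (h : C.Exp v x) (h' : C.Exp x y) (h'' : C.Exp y w) :
    C.Asc φ v w (φ v x * φ x y * φ y w) := by
  rw [mul_assoc]
  exact Asc.step h (Asc.two h' h'')

/-- `Asc` only depends on the values of the cocycle on edges whose upper vertex has at most `w.card` tiles. -/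
theorem Asc.congr {v w : Finset TT} {g : G} (h : C.Asc φ v w g)
    (hφ : ∀ x y, y.card ≤ w.card → φ x y = φ' x y) : C.Asc φ' v w g := by
  induction h with
  | refl v => exact Asc.refl _
  | step hvx hxw ih =>
    rw [hφ _ _ hxw.card_le]
    exact Asc.step hvx (ih hφ)

end asc

variable (C) in
/-- Coherence up to height `M`: ascending paths in `K v1` with the same end points, the top one
with at most `M` tiles, have the same holonomy. -/
def Coh (v1 : Finset TT) (M : ℕ) (φ : Finset TT → Finset TT → G) : Prop :=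
  ∀ v ∈ C.K v1, ∀ (w : Finset TT) (g g' : G), w.card ≤ M → C.Asc φ v w g → C.Asc φ v w g' → g = g'

/-- 2.12 in terms of `Coh`. -/
theorem Flat.coh {v1 : Finset TT} (h1 : C.IsPart v1) {M : ℕ} {φ : Finset TT → Finset TT → G}
    (h : C.Flat v1 φ M) : C.Coh v1 M φ :=
  fun _ hv _ _ _ hM H H' => coherence h1 h hv hM H H'

/-- `d(m,m') = φ(w_mm', w_m)⁻¹ φ(w_mm', w_m')` (used for disjoint merges). -/
noncomputable def dd (φ : Finset TT → Finset TT → G) {w : Finset TT} (m m' : C.Merge w) : G :=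
  (φ (m.low2 m') m.low)⁻¹ * φ (m.low2 m') m'.low

/-- `c(m,m') = d(m,mo) d(mo,m')` for a merge `mo` disjoint from `m` and `m'`. -/
noncomputable def cc (φ : Finset TT → Finset TT → G) {w : Finset TT} (m m' : C.Merge w) : G :=
  if h : ∃ mo : C.Merge w, m.Disj mo ∧ m'.Disj mo then
    dd φ m h.choose * dd φ h.choose m' else 1

/-- The reference merge `m0(w)`. -/
noncomputable def m0 (w : Finset TT) (h : Nonempty (C.Merge w)) : C.Merge w := Classical.choice h

variable (C) in
/-- 3.3: the extension `φ+` of a cocycle from height `M` to height `M+1`. -/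
noncomputable def ext (M : ℕ) (φ : Finset TT → Finset TT → G) (u w : Finset TT) : G :=
  if h : w.card = M + 1 ∧ ∃ m : C.Merge w, m.low = u then
    cc φ h.2.choose (m0 w ⟨h.2.choose⟩) else φ u w

theorem ext_of_card_ne {M : ℕ} {φ : Finset TT → Finset TT → G} {u w : Finset TT}
    (h : w.card ≠ M + 1) : C.ext M φ u w = φ u w := by
  unfold ext
  rw [dif_neg (fun hh => h hh.1)]

theorem ext_low {M : ℕ} {φ : Finset TT → Finset TT → G} {w : Finset TT} (hw : C.IsPart w)
    (hc : w.card = M + 1) (m : C.Merge w) : C.ext M φ m.low w = cc φ m (m0 w ⟨m⟩) := by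
  have hex : w.card = M + 1 ∧ ∃ m' : C.Merge w, m'.low = m.low := ⟨hc, m, rfl⟩
  have e : hex.2.choose = m := Merge.low_injective hw hex.2.choose_spec
  unfold ext
  rw [dif_pos hex, e]

end CutSys
end Claimed.Agent.R152.B
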