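import Claimed.Agent.R152.B.Spare.Triangle

/-!
# Row 152, module B, sec. 3.2: the cocycle `c(m,m')` on all pairs of merges of `w`, `|w| = M+1 ≥ 10`

Black boxes: `Spare/Merge.lean` (`exists_disj`), `Spare/Triangle.lean`.   Statements FROZEN; auxiliary lemmas welcome.
-/

open scoped Classical

namespace Claimed.Agent.R152.B
namespace CutSys

universe u v w
variable {TT : Type u} {X : Type v} {C : CutSys TT X} {G : Type w} [Group G]
variable {φ : Finset TT → Finset TT → G}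

/-- auxiliary: pass from the middle merge `mo` to a middle merge `ms` disjoint from `m, m', mo`. -/
theorem cc_aux_mid {v1 w : Finset TT} (h1 : C.IsPart v1) {M : ℕ} (hφ : C.Coh v1 M φ)
    (hw : w ∈ C.K v1) (hc : w.card = M + 1) {m m' mo ms : C.Merge w}
    (h : m.Disj mo) (h' : m'.Disj mo) (k : m.Disj ms) (k' : m'.Disj ms) (ko : mo.Disj ms) :
    dd φ m mo * dd φ mo m' = dd φ m ms * dd φ ms m' := by
  have hP : C.IsPart w := K_isPart h1 hw
  have t1 : dd φ m mo * dd φ mo ms = dd φ m ms := dd_triangle h1 hφ hw hc h ko k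
  have t2 : dd φ ms mo * dd φ mo m' = dd φ ms m' := dd_triangle h1 hφ hw hc ko.symm h'.symm k'.symm
  have t3 : dd φ mo ms * dd φ ms mo = 1 := dd_inv hP ko
  calc dd φ m mo * dd φ mo m' = dd φ m mo * (dd φ mo ms * dd φ ms mo) * dd φ mo m' := by
        rw [t3, mul_one]
    _ = (dd φ m mo * dd φ mo ms) * (dd φ ms mo * dd φ mo m') := by group
    _ = dd φ m ms * dd φ ms m' := by rw [t1, t2]

/-- auxiliary: the product `d(m,mo) d(mo,m')` does not depend on `mo`. -/
theorem cc_aux_indep {v1 w : Finset TT} (h1 : C.IsPart v1) {M : ℕ} (hM : 9 ≤ M) (hφ : C.Coh v1 M φ)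
    (hw : w ∈ C.K v1) (hc : w.card = M + 1) {m m' mo mo' : C.Merge w}
    (h : m.Disj mo) (h' : m'.Disj mo) (k : m.Disj mo') (k' : m'.Disj mo') :
    dd φ m mo * dd φ mo m' = dd φ m mo' * dd φ mo' m' := by
  have hP : C.IsPart w := K_isPart h1 hw
  obtain ⟨ms, hms⟩ := exists_disj hP [m, m', mo, mo'] (by simp only [List.length_cons, List.length_nil]; omega)
  have a1 : m.Disj ms := hms m (by simp)
  have a2 : m'.Disj ms := hms m' (by simp)
  have a3 : mo.Disj ms := hms mo (by simp)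
  have a4 : mo'.Disj ms := hms mo' (by simp)
  rw [cc_aux_mid h1 hφ hw hc h h' a1 a2 a3, cc_aux_mid h1 hφ hw hc k k' a1 a2 a4]

/-- 3.2: `c(m,m')` can be computed with ANY `mo` disjoint from `m` and `m'`.
(Two choices `mo, mo'`: take `m*` disjoint from `m, m', mo, mo'` (8 tiles, `|w| ≥ 10`) and use 3.1 twice:
`d(m,mo) d(mo,m') = d(m,mo) d(mo,m*) d(m*,mo) d(mo,m') = d(m,m*) d(m*,m')`.) -/
theorem cc_eq {v1 w : Finset TT} (h1 : C.IsPart v1) {M : ℕ} (hM : 9 ≤ M) (hφ : C.Coh v1 M φ)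
    (hw : w ∈ C.K v1) (hc : w.card = M + 1) {m m' mo : C.Merge w}
    (h : m.Disj mo) (h' : m'.Disj mo) : cc φ m m' = dd φ m mo * dd φ mo m' := by
  have hex : ∃ mo : C.Merge w, m.Disj mo ∧ m'.Disj mo := ⟨mo, h, h'⟩
  have e : cc φ m m' = dd φ m hex.choose * dd φ hex.choose m' := by
    unfold cc
    exact dif_pos hex
  rw [e]
  exact cc_aux_indep h1 hM hφ hw hc hex.choose_spec.1 hex.choose_spec.2 h h'

/-- 3.2: `c = d` on disjoint pairs. -/
theorem cc_eq_dd {v1 w : Finset TT} (h1 : C.IsPart v1) {M : ℕ} (hM : 9 ≤ M) (hφ : C.Coh v1 M φ)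
    (hw : w ∈ C.K v1) (hc : w.card = M + 1) {m m' : C.Merge w} (h : m.Disj m') :
    cc φ m m' = dd φ m m' := by
  have hP : C.IsPart w := K_isPart h1 hw
  obtain ⟨ms, hms⟩ := exists_disj hP [m, m'] (by simp only [List.length_cons, List.length_nil]; omega)
  have a1 : m.Disj ms := hms m (by simp)
  have a2 : m'.Disj ms := hms m' (by simp)
  rw [cc_eq h1 hM hφ hw hc a1 a2]
  exact dd_triangle h1 hφ hw hc a1 a2.symm h

/-- 3.2: cocycle identity (take `m*` disjoint from the three). -/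
theorem cc_mul {v1 w : Finset TT} (h1 : C.IsPart v1) {M : ℕ} (hM : 9 ≤ M) (hφ : C.Coh v1 M φ)
    (hw : w ∈ C.K v1) (hc : w.card = M + 1) (m m' m'' : C.Merge w) :
    cc φ m m' * cc φ m' m'' = cc φ m m'' := by
  have hP : C.IsPart w := K_isPart h1 hw
  obtain ⟨ms, hms⟩ := exists_disj hP [m, m', m''] (by simp only [List.length_cons, List.length_nil]; omega)
  have a1 : m.Disj ms := hms m (by simp)
  have a2 : m'.Disj ms := hms m' (by simp)
  have a3 : m''.Disj ms := hms m'' (by simp)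
  have t : dd φ ms m' * dd φ m' ms = 1 := dd_inv hP a2.symm
  rw [cc_eq h1 hM hφ hw hc a1 a2, cc_eq h1 hM hφ hw hc a2 a3, cc_eq h1 hM hφ hw hc a1 a3]
  calc dd φ m ms * dd φ ms m' * (dd φ m' ms * dd φ ms m'')
      = dd φ m ms * (dd φ ms m' * dd φ m' ms) * dd φ ms m'' := by group
    _ = dd φ m ms * dd φ ms m'' := by rw [t, mul_one]

end CutSys
end Claimed.Agent.R152.B
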