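import Claimed.Agent.R152.B.Spare.Merge

/-!
# Row 152, module B, sec. 3.0: CONNECTIVITY of the truncation `K_{≤N}`, `N ≥ 5`

Black boxes: `Cut/Part.lean`, `Spare/Merge.lean`.   (Ported by helper97 to the `Cut/Defs.lean` on main: `Asc`, `Flat o φ M`, `rep`/`mrg`, classical; see header of `Spare/Merge.lean`.)
Statements FROZEN; auxiliary lemmas welcome.
-/

set_option autoImplicit false
open scoped Classical

namespace Claimed.Agent.R152.B
namespace CutSys

universe u v w
variable {TT : Type u} {X : Type v} {C : CutSys TT X}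

variable (C) in
/-- Adjacency inside the truncation at height `N`. -/
def AdjLe (N : ℕ) (x y : Finset TT) : Prop := C.Adj x y ∧ x.card ≤ N ∧ y.card ≤ N

theorem AdjLe.mono {N M : ℕ} (hNM : N ≤ M) {x y : Finset TT} (h : C.AdjLe N x y) :
    C.AdjLe M x y :=
  ⟨h.1, h.2.1.trans hNM, h.2.2.trans hNM⟩

theorem AdjLe.of_exp {N : ℕ} {x y : Finset TT} (h : C.Exp x y) (hy : y.card ≤ N) :
    C.AdjLe N x y :=
  ⟨Or.inl h, by have := h.card; omega, hy⟩

theorem AdjLe.of_exp_left {N : ℕ} {x y : Finset TT} (h : C.Exp x y) (hy : y.card ≤ N) :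
    C.AdjLe N y x :=
  ⟨Or.inr h, hy, by have := h.card; omega⟩

/-- (a) every zigzag lies in some truncation. -/
theorem conn_aux_exists (N : ℕ) {v1 u : Finset TT} (h : Relation.ReflTransGen C.Adj v1 u) :
    ∃ M, N ≤ M ∧ Relation.ReflTransGen (C.AdjLe M) v1 u := by
  induction h with
  | refl => exact ⟨N, le_rfl, Relation.ReflTransGen.refl⟩
  | @tail b c _ hbc ih =>
    obtain ⟨M, hM, hp⟩ := ih
    refine ⟨max M (max b.card c.card), hM.trans (le_max_left _ _), ?_⟩
    refine Relation.ReflTransGen.tail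
      (Relation.ReflTransGen.mono (fun _ _ h => AdjLe.mono (le_max_left _ _) h) _ _ hp)
      ⟨hbc, ?_, ?_⟩
    · exact (le_max_left _ _).trans (le_max_right _ _)
    · exact (le_max_right _ _).trans (le_max_right _ _)

/-- Any two lower neighbours of a partition with `M + 1 ≥ 6` tiles are connected below it. -/
theorem conn_aux_low_low {w : Finset TT} (hw : C.IsPart w) {M : ℕ} (hM : 5 ≤ M)
    (hc : w.card = M + 1) (m m' : C.Merge w) :
    Relation.ReflTransGen (C.AdjLe M) m.low m'.low := by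
  obtain ⟨mo, hmo⟩ := exists_disj hw [m, m'] (by
    simp only [List.length_cons, List.length_nil]; omega)
  have h1 : m.Disj mo := hmo m (by simp)
  have h2 : m'.Disj mo := hmo m' (by simp)
  have c1 : m.low.card ≤ M := by have := (Merge.exp_low hw m).card; omega
  have c2 : m'.low.card ≤ M := by have := (Merge.exp_low hw m').card; omega
  have c3 : mo.low.card ≤ M := by have := (Merge.exp_low hw mo).card; omega
  have e1 := Merge.exp_low2 hw h1
  have e2 := Merge.exp_low2 hw h2
  exact (((Relation.ReflTransGen.single (AdjLe.of_exp_left e1.1 c1)).tail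
    (AdjLe.of_exp e1.2 c3)).tail (AdjLe.of_exp_left e2.2 c3)).tail (AdjLe.of_exp e2.1 c2)

/-- (b) step down, in relational form. -/
theorem conn_aux_step {x0 : Finset TT} (h0 : C.IsPart x0) {M : ℕ} (hM : 5 ≤ M)
    (hc0 : x0.card ≤ M) {y : Finset TT} (h : Relation.ReflTransGen (C.AdjLe (M + 1)) x0 y) :
    C.IsPart y ∧ (y.card ≤ M → Relation.ReflTransGen (C.AdjLe M) x0 y) ∧
      (y.card = M + 1 → ∀ m : C.Merge y, Relation.ReflTransGen (C.AdjLe M) x0 m.low) := by
  induction h with
  | refl =>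
    exact ⟨h0, fun _ => Relation.ReflTransGen.refl, fun hc => by omega⟩
  | @tail b c _ hbc ih =>
    obtain ⟨hPb, ih1, ih2⟩ := ih
    obtain ⟨hadj, hb, hc⟩ := hbc
    rcases hadj with he | he
    · have hcard := he.card
      have hPc : C.IsPart c := he.isPart hPb
      have hxb := ih1 (by omega)
      refine ⟨hPc, fun hcM => hxb.tail (AdjLe.of_exp he hcM), fun hcM m => ?_⟩
      obtain ⟨mb, hmb⟩ := exists_merge_of_exp he
      have := conn_aux_low_low hPc hM hcM mb m
      rw [hmb] at this
      exact hxb.trans this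
    · have hcard := he.card
      have hPc : C.IsPart c := he.isPart_left hPb
      refine ⟨hPc, fun _ => ?_, fun hcM => by omega⟩
      by_cases hbM : b.card ≤ M
      · exact (ih1 hbM).tail (AdjLe.of_exp_left he hbM)
      · obtain ⟨mb, hmb⟩ := exists_merge_of_exp he
        have := ih2 (by omega) mb
        rwa [hmb] at this

/-- (c) downward induction. -/
theorem conn_aux_down {v1 u : Finset TT} (h1 : C.IsPart v1) {N : ℕ} (hN : 5 ≤ N)
    (hc1 : v1.card ≤ N) (hc : u.card ≤ N) {M : ℕ} (hNM : N ≤ M)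
    (h : Relation.ReflTransGen (C.AdjLe M) v1 u) : Relation.ReflTransGen (C.AdjLe N) v1 u := by
  induction M, hNM using Nat.le_induction with
  | base => exact h
  | succ M hNM ih =>
    exact ih ((conn_aux_step h1 (hN.trans hNM) (hc1.trans hNM) h).2.1 (hc.trans hNM))

/-- **3.0 CONNECTIVITY.**
Proof.  (a) Every zigzag lies in some truncation: `ReflTransGen Adj v1 u → ∃ M ≥ N, ReflTransGen (AdjLe M) v1 u`.
(b) Step down, for `M ≥ 5`: if `x, y` are partitions with at most `M` tiles and `ReflTransGen (AdjLe (M+1)) x y` then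
`ReflTransGen (AdjLe M) x y`.  Define `ρ(u) = u` if `|u| ≤ M`, `ρ(w) = w_m` for a chosen merge `m` if `|w| = M+1`.
`AdjLe (M+1) x y → ReflTransGen (AdjLe M) (ρ x) (ρ y)`: the only interesting case is `Exp y x`, `|x| = M+1`, `y = x_m`
(`exists_merge_of_exp`), `ρ x = x_m'`.  For disjoint merges `x_m — x_mm' — x_m'` (`Merge.exp_low2`), and any two merges have a
common disjoint merge (`exists_disj`, `|x| ≥ 6`).  (`AdjLe` is symmetric.)
(c) Downward induction from `M` to `N`. -/
theorem conn {v1 u : Finset TT} (h1 : C.IsPart v1) {N : ℕ} (hN : 5 ≤ N) (hc1 : v1.card ≤ N)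
    (hu : u ∈ C.K v1) (hc : u.card ≤ N) : Relation.ReflTransGen (C.AdjLe N) v1 u := by
  obtain ⟨M, hNM, hp⟩ := conn_aux_exists (C := C) N hu
  exact conn_aux_down h1 hN hc1 hc hNM hp

/-- Induction principle on the truncation (direct consequence of `conn`). -/
theorem K_le_induction {v1 : Finset TT} (h1 : C.IsPart v1) {N : ℕ} (hN : 5 ≤ N)
    (hc1 : v1.card ≤ N) (p : Finset TT → Prop) (hbase : p v1)
    (hup : ∀ x ∈ C.K v1, ∀ y, C.Exp x y → y.card ≤ N → p x → p y)
    (hdown : ∀ x ∈ C.K v1, ∀ y, C.Exp x y → y.card ≤ N → p y → p x) :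
    ∀ u ∈ C.K v1, u.card ≤ N → p u := by
  intro u hu hc
  have key : u ∈ C.K v1 ∧ p u := by
    have hp := conn h1 hN hc1 hu hc
    clear hu hc
    induction hp with
    | refl => exact ⟨K_base v1, hbase⟩
    | @tail b c _ hbc ih =>
      obtain ⟨hbK, hpb⟩ := ih
      obtain ⟨hadj, hb, hc⟩ := hbc
      rcases hadj with he | he
      · exact ⟨K_exp hbK he, hup b hbK c he hc hpb⟩
      · exact ⟨K_exp_left hbK he, hdown c (K_exp_left hbK he) b he hb hpb⟩
  exact key.2

end CutSys
end Claimed.Agent.R152.B
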