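import Claimed.Agent.R152.B.Spare.Cocycle

/-!
# Row 152, module B, sec. 3.3: EXTENSION, new hexagon cells

Black boxes: `Cut/Part.lean`, `Cut/Coherence.lean`, `Spare/Merge.lean`, `Spare/Cocycle.lean`.   (Ported by helper97 to the `Cut/Defs.lean` on main: `Asc`, `Flat o φ M`, `rep`/`mrg`, classical; see header of `Spare/Merge.lean`.)
Statement FROZEN; aux lemmas welcome.
-/

set_option autoImplicit false
open scoped Classical

namespace Claimed.Agent.R152.B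

universe u v w

section exthxAux
variable {TT : Type u}

theorem exthx_mrg_rep_comm {t : Finset TT} {a b c ao r r' : TT} (h1 : ao ≠ a) (h2 : b ≠ r)
    (h3 : b ≠ r') (h4 : c ≠ r) (h5 : c ≠ r') :
    mrg (rep t a b c) ao r r' = rep (mrg t ao r r') a b c := by
  ext x
  simp only [mem_rep, mem_mrg]
  constructor
  · rintro (e | ⟨n1, n2, e | e | ⟨n3, hx⟩⟩)
    · exact Or.inr (Or.inr ⟨e ▸ h1, Or.inl e⟩)
    · exact Or.inl e
    · exact Or.inr (Or.inl e)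
    · exact Or.inr (Or.inr ⟨n3, Or.inr ⟨n1, n2, hx⟩⟩)
  · rintro (e | e | ⟨n3, e | ⟨n1, n2, hx⟩⟩)
    · exact Or.inr ⟨e ▸ h3, e ▸ h2, Or.inl e⟩
    · exact Or.inr ⟨e ▸ h5, e ▸ h4, Or.inr (Or.inl e)⟩
    · exact Or.inl e
    · exact Or.inr ⟨n1, n2, Or.inr (Or.inr ⟨n3, hx⟩)⟩

theorem exthx_group {G : Type w} [Group G] {p B Bo s t u z Cc Co : G} (h1 : Bo * t = Co * u)
    (h2 : p * B = Bo * s) (h3 : p * Cc = Co * z) : B * (s⁻¹ * t * (u⁻¹ * z)) = Cc := by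
  apply mul_left_cancel (a := p)
  calc p * (B * (s⁻¹ * t * (u⁻¹ * z))) = (p * B) * s⁻¹ * t * u⁻¹ * z := by group
    _ = (Bo * t) * u⁻¹ * z := by rw [h2]; group
    _ = Co * z := by rw [h1]; group
    _ = p * Cc := h3.symm

end exthxAux

namespace CutSys


variable {TT : Type u} {X : Type v} {C : CutSys TT X} {G : Type w} [Group G]
variable {φ : Finset TT → Finset TT → G}

theorem exthx_asc3 {v x y z : Finset TT} (h : C.Exp v x) (h' : C.Exp x y) (h'' : C.Exp y z) :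
    C.Asc φ v z (φ v x * φ x y * φ y z) := by
  have := Asc.step (φ := φ) h (Asc.step h' (Asc.step h'' (Asc.refl z)))
  simpa [mul_assoc] using this

theorem exthx_key {v : Finset TT} (hvP : C.IsPart v) {a ao r r' : TT} (ha : a ∈ v) (hr : r ∈ v)
    (hr' : r' ∈ v) (hra : r ≠ a) (hra' : r' ≠ a) (hao : C.Sp ao r r') :
    ∀ t, C.Below t a → t ≠ r ∧ t ≠ r' ∧ ao ≠ t := by
  have dr : Disjoint (C.supp a) (C.supp r) := hvP.disj a ha r hr (Ne.symm hra)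
  have dr' : Disjoint (C.supp a) (C.supp r') := hvP.disj a ha r' hr' (Ne.symm hra')
  intro t ht
  refine ⟨cell_ne_of_below ht dr, cell_ne_of_below ht dr', ?_⟩
  rintro rfl
  exact Below.not_disjoint (Below.trans (sp_below_left hao) ht) (Below.refl r) dr

/-- the computation of 3.3 (new hexagon), in terms of `rep`, `mrg`, `Exp`, `Asc` only. -/
theorem exthx_core {v1 : Finset TT} (h1 : C.IsPart v1) {M : ℕ}
    (hcoh : ∀ u ∈ C.K v1, ∀ (z : Finset TT) (g g' : G), z.card ≤ M → C.Asc φ u z g →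
      C.Asc φ u z g' → g = g')
    {v : Finset TT} (hv : v ∈ C.K v1) {a b0 b1 c0 c1 q00 q01 q10 q11 ao r r' : TT} (ha : a ∈ v)
    (hb : C.Sp a b0 b1) (hc : C.Sp a c0 c1) (h0 : C.Sp b0 q00 q01) (h1' : C.Sp b1 q10 q11)
    (k0 : C.Sp c0 q00 q10) (k1 : C.Sp c1 q01 q11)
    (hr : r ∈ v) (hr' : r' ∈ v) (hra : r ≠ a) (hra' : r' ≠ a) (hao : C.Sp ao r r')
    (hcard : (rep (rep (rep v a b0 b1) b0 q00 q01) b1 q10 q11).card = M + 1) :
    φ v (rep v a b0 b1) * φ (rep v a b0 b1) (rep (rep v a b0 b1) b0 q00 q01) *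
      ((φ (mrg (rep (rep v a b0 b1) b0 q00 q01) ao r r') (rep (rep v a b0 b1) b0 q00 q01))⁻¹ *
        φ (mrg (rep (rep v a b0 b1) b0 q00 q01) ao r r')
          (mrg (rep (rep (rep v a b0 b1) b0 q00 q01) b1 q10 q11) ao r r') *
       ((φ (mrg (rep (rep v a c0 c1) c0 q00 q10) ao r r')
          (mrg (rep (rep (rep v a b0 b1) b0 q00 q01) b1 q10 q11) ao r r'))⁻¹ *
        φ (mrg (rep (rep v a c0 c1) c0 q00 q10) ao r r') (rep (rep v a c0 c1) c0 q00 q10))) =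
    φ v (rep v a c0 c1) * φ (rep v a c0 c1) (rep (rep v a c0 c1) c0 q00 q10) := by
  have hvP : C.IsPart v := K_isPart h1 hv
  -- disequalities
  have key := exthx_key hvP ha hr hr' hra hra' hao
  have Ba : C.Below a a := Below.refl a
  have Bb0 : C.Below b0 a := sp_below_left hb
  have Bb1 : C.Below b1 a := sp_below_right hb
  have Bc0 : C.Below c0 a := sp_below_left hc
  have Bc1 : C.Below c1 a := sp_below_right hc
  have Bq00 : C.Below q00 a := Below.trans (sp_below_left h0) Bb0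
  have Bq01 : C.Below q01 a := Below.trans (sp_below_right h0) Bb0
  have Bq10 : C.Below q10 a := Below.trans (sp_below_left h1') Bb1
  have Bq11 : C.Below q11 a := Below.trans (sp_below_right h1') Bb1
  -- the lower hexagon
  have hvo : C.Exp (mrg v ao r r') v := hvP.exp_mrg hr hr' hao
  have hvoP : C.IsPart (mrg v ao r r') := hvP.isPart_mrg hr hr' hao
  have hvoK : mrg v ao r r' ∈ C.K v1 := K_exp_left hv hvo
  have hao' : a ∈ mrg v ao r r' := mem_mrg.2 (Or.inr ⟨Ne.symm hra', Ne.symm hra, ha⟩)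
  have ex1 : mrg (rep v a b0 b1) ao r r' = rep (mrg v ao r r') a b0 b1 :=
    exthx_mrg_rep_comm (key a Ba).2.2 (key b0 Bb0).1 (key b0 Bb0).2.1 (key b1 Bb1).1 (key b1 Bb1).2.1
  have ex2 : mrg (rep (rep v a b0 b1) b0 q00 q01) ao r r' =
      rep (rep (mrg v ao r r') a b0 b1) b0 q00 q01 := by
    rw [exthx_mrg_rep_comm (key b0 Bb0).2.2 (key q00 Bq00).1 (key q00 Bq00).2.1 (key q01 Bq01).1
      (key q01 Bq01).2.1, ex1]
  have exw : mrg (rep (rep (rep v a b0 b1) b0 q00 q01) b1 q10 q11) ao r r' =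
      rep (rep (rep (mrg v ao r r') a b0 b1) b0 q00 q01) b1 q10 q11 := by
    rw [exthx_mrg_rep_comm (key b1 Bb1).2.2 (key q10 Bq10).1 (key q10 Bq10).2.1 (key q11 Bq11).1
      (key q11 Bq11).2.1, ex2]
  have ey1 : mrg (rep v a c0 c1) ao r r' = rep (mrg v ao r r') a c0 c1 :=
    exthx_mrg_rep_comm (key a Ba).2.2 (key c0 Bc0).1 (key c0 Bc0).2.1 (key c1 Bc1).1 (key c1 Bc1).2.1
  have ey2 : mrg (rep (rep v a c0 c1) c0 q00 q10) ao r r' =
      rep (rep (mrg v ao r r') a c0 c1) c0 q00 q10 := by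
    rw [exthx_mrg_rep_comm (key c0 Bc0).2.2 (key q00 Bq00).1 (key q00 Bq00).2.1 (key q10 Bq10).1
      (key q10 Bq10).2.1, ey1]
  have cellU : C.HxCell v (rep v a b0 b1) (rep (rep v a b0 b1) b0 q00 q01) (rep v a c0 c1)
      (rep (rep v a c0 c1) c0 q00 q10) (rep (rep (rep v a b0 b1) b0 q00 q01) b1 q10 q11) :=
    ⟨a, ha, b0, b1, c0, c1, q00, q01, q10, q11, hb, hc, h0, h1', k0, k1, rfl, rfl, rfl, rfl, rfl⟩
  have cellL : C.HxCell (mrg v ao r r') (rep (mrg v ao r r') a b0 b1)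
      (rep (rep (mrg v ao r r') a b0 b1) b0 q00 q01) (rep (mrg v ao r r') a c0 c1)
      (rep (rep (mrg v ao r r') a c0 c1) c0 q00 q10)
      (rep (rep (rep (mrg v ao r r') a b0 b1) b0 q00 q01) b1 q10 q11) :=
    ⟨a, hao', b0, b1, c0, c1, q00, q01, q10, q11, hb, hc, h0, h1', k0, k1, rfl, rfl, rfl, rfl, rfl⟩
  obtain ⟨U1, U2, U3, U4, U5, U6⟩ := cellU.exp hvP
  obtain ⟨L1, L2, L3, L4, L5, L6⟩ := cellL.exp hvoP
  -- the vertical edges
  have hx2P : C.IsPart (rep (rep v a b0 b1) b0 q00 q01) := U2.isPart (U1.isPart hvP)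
  have hy2P : C.IsPart (rep (rep v a c0 c1) c0 q00 q10) := U5.isPart (U4.isPart hvP)
  have mem2 : ∀ t ∈ v, t ≠ a → ∀ d0 d1 e0 e1 : TT, d0 ∉ v → t ∈ rep (rep v a d0 d1) d0 e0 e1 := by
    intro t ht hta d0 d1 e0 e1 hd0
    refine mem_rep.2 (Or.inr (Or.inr ⟨?_, mem_rep.2 (Or.inr (Or.inr ⟨hta, ht⟩))⟩))
    rintro rfl
    exact hd0 ht
  have nb0 : b0 ∉ v := hvP.sp_not_mem_left ha hb
  have nc0 : c0 ∉ v := hvP.sp_not_mem_left ha hc
  have Vx : C.Exp (mrg (rep (rep v a b0 b1) b0 q00 q01) ao r r') (rep (rep v a b0 b1) b0 q00 q01) :=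
    hx2P.exp_mrg (mem2 r hr hra _ _ _ _ nb0) (mem2 r' hr' hra' _ _ _ _ nb0) hao
  have Vy : C.Exp (mrg (rep (rep v a c0 c1) c0 q00 q10) ao r r') (rep (rep v a c0 c1) c0 q00 q10) :=
    hy2P.exp_mrg (mem2 r hr hra _ _ _ _ nc0) (mem2 r' hr' hra' _ _ _ _ nc0) hao
  -- cardinalities
  have cx2 : (rep (rep v a b0 b1) b0 q00 q01).card ≤ M := by have := U3.card; omega
  have cy2 : (rep (rep v a c0 c1) c0 q00 q10).card ≤ M := by have := U6.card; omega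
  have cW : (rep (rep (rep (mrg v ao r r') a b0 b1) b0 q00 q01) b1 q10 q11).card ≤ M := by
    have e1 := L3.card
    have e2 := Vx.card
    rw [ex2] at e2
    have := U3.card
    omega
  rw [ex2, exw, ey2] at *
  refine exthx_group (p := φ (mrg v ao r r') v)
    (Bo := φ (mrg v ao r r') (rep (mrg v ao r r') a b0 b1) *
      φ (rep (mrg v ao r r') a b0 b1) (rep (rep (mrg v ao r r') a b0 b1) b0 q00 q01))
    (Co := φ (mrg v ao r r') (rep (mrg v ao r r') a c0 c1) *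
      φ (rep (mrg v ao r r') a c0 c1) (rep (rep (mrg v ao r r') a c0 c1) c0 q00 q10)) ?_ ?_ ?_
  · exact hcoh _ hvoK _ _ _ cW (exthx_asc3 L1 L2 L3) (exthx_asc3 L4 L5 L6)
  · rw [← mul_assoc]
    exact hcoh _ hvoK _ _ _ cx2 (exthx_asc3 hvo U1 U2) (exthx_asc3 L1 L2 Vx)
  · rw [← mul_assoc]
    exact hcoh _ hvoK _ _ _ cy2 (exthx_asc3 hvo U4 U5) (exthx_asc3 L4 L5 Vy)

/-- 3.3, new HX-cell with top `w`, `|w| = M+1`.
Data `(R,a,b0,b1,c0,c1,q00,q01,q10,q11)`, `|R| = M-3 ≥ 6`.  Merges of `w`: `m1 = (b1;q10,q11)`, `w_m1 = x2`; `m2 = (c1;q01,q11)`, `w_m2 = y2`.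
`B := φ v x1 * φ x1 x2`, `Cc := φ v y1 * φ y1 y2`.  `ext = φ` on the first four edges, `ext x2 w = c(m1,m0)`, `ext y2 w = c(m2,m0)`,
`c(m1,m0) = c(m1,m2) c(m2,m0)`; so we need `B * c(m1,m2) = Cc`.
Take `r ≠ r'` in `R`, `R = insert r (insert r' R0)`, `Sp ao r r'` (A3), `mo = (ao;r,r')`; for a vertex `t = R + stuff` put `t° = insert ao R0 + stuff`.
`c(m1,m2) = d(m1,mo) d(mo,m2) = φ(x2°,x2)⁻¹ φ(x2°,w°) φ(y2°,w°)⁻¹ φ(y2°,y2)`  (`cc_eq`; `w° = w_mo`, `x2° = w_{m1 mo}`, `y2° = w_{mo m2}`).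
Three applications of `Coh` (bottom `v° ∈ K`, tops with at most `M` tiles, `Asc.three`):
 (1) `v°,x1°,x2°,w°` and `v°,y1°,y2°,w°`:   `B° φ(x2°,w°) = Cc° φ(y2°,w°)`;
 (2) `v°,v,x1,x2` and `v°,x1°,x2°,x2`:      `φ(v°,v) B = B° φ(x2°,x2)`;
 (3) `v°,v,y1,y2` and `v°,y1°,y2°,y2`:      `φ(v°,v) Cc = Cc° φ(y2°,y2)`.
Hence `B c(m1,m2) = φ(v°,v)⁻¹ B° φ(x2°,w°) φ(y2°,w°)⁻¹ φ(y2°,y2) = φ(v°,v)⁻¹ Cc° φ(y2°,y2) = Cc`. -/
theorem ext_hx {v1 : Finset TT} (h1 : C.IsPart v1) {M : ℕ} (hM : 9 ≤ M) (hφ : C.Coh v1 M φ)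
    {v x1 x2 y1 y2 w : Finset TT} (hv : v ∈ C.K v1) (hcell : C.HxCell v x1 x2 y1 y2 w)
    (hc : w.card = M + 1) :
    C.ext M φ v x1 * C.ext M φ x1 x2 * C.ext M φ x2 w =
      C.ext M φ v y1 * C.ext M φ y1 y2 * C.ext M φ y2 w := by
  have hvP : C.IsPart v := K_isPart h1 hv
  obtain ⟨U1, U2, U3, U4, U5, U6⟩ := hcell.exp hvP
  have hcardv := hcell.card hvP
  have hwK : w ∈ C.K v1 := K_exp (K_exp (K_exp hv U1) U2) U3
  have hwP : C.IsPart w := K_isPart h1 hwK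
  have hx2P : C.IsPart x2 := U2.isPart (U1.isPart hvP)
  have hy2P : C.IsPart y2 := U5.isPart (U4.isPart hvP)
  have c1 := U1.card
  have c2 := U2.card
  have c4 := U4.card
  have c5 := U5.card
  rw [ext_of_card_ne (u := v) (w := x1) (by omega), ext_of_card_ne (u := x1) (w := x2) (by omega),
    ext_of_card_ne (u := v) (w := y1) (by omega), ext_of_card_ne (u := y1) (w := y2) (by omega)]
  obtain ⟨a, ha, b0, b1, c0, c1', q00, q01, q10, q11, hb, hcc, h0, h1', k0, k1, rfl, rfl, rfl, rfl,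
    rfl⟩ := hcell
  have htop := hx_top hvP ha hb hcc h0 h1' k0 k1
  -- two spare tiles
  have hcard2 : 2 < v.card := by omega
  obtain ⟨r, hr, hra⟩ : ∃ r ∈ v, r ≠ a := by
    by_contra hcon
    push Not at hcon
    have : v ⊆ {a} := fun t ht => Finset.mem_singleton.2 (hcon t ht)
    have := Finset.card_le_card this
    simp at this
    omega
  obtain ⟨r', hr', hra', hrr'⟩ : ∃ r' ∈ v, r' ≠ a ∧ r' ≠ r := by
    by_contra hcon
    push Not at hcon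
    have : v ⊆ {a, r} := fun t ht => by
      by_cases hta : t = a
      · simp [hta]
      · simp [hcon t ht hta]
    have h2 := Finset.card_le_card this
    have h3 : ({a, r} : Finset TT).card ≤ 2 := Finset.card_le_two
    omega
  obtain ⟨ao, hao⟩ := C.merge (hvP.disj r hr r' hr' (Ne.symm hrr'))
  have key := exthx_key hvP ha hr hr' hra hra' hao
  have Bb1 : C.Below b1 a := sp_below_right hb
  have Bc1 : C.Below c1' a := sp_below_right hcc
  have Bq01 : C.Below q01 a := Below.trans (sp_below_left k1) Bc1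
  have Bq10 : C.Below q10 a := Below.trans (sp_below_left h1') Bb1
  have Bq11 : C.Below q11 a := Below.trans (sp_below_right h1') Bb1
  have memW := cell_hx_half (q10 := q10) (q11 := q11) hvP ha hb h0
  -- the three merges
  obtain ⟨m1, hm1a, hm1b, hm1c⟩ : ∃ m : C.Merge (rep (rep (rep v a b0 b1) b0 q00 q01) b1 q10 q11),
      m.a = b1 ∧ m.b = q10 ∧ m.c = q11 :=
    ⟨⟨b1, q10, q11, (memW _).2 (by tauto), (memW _).2 (by tauto), h1'⟩, rfl, rfl, rfl⟩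
  obtain ⟨m2, hm2a, hm2b, hm2c⟩ : ∃ m : C.Merge (rep (rep (rep v a b0 b1) b0 q00 q01) b1 q10 q11),
      m.a = c1' ∧ m.b = q01 ∧ m.c = q11 :=
    ⟨⟨c1', q01, q11, (memW _).2 (by tauto), (memW _).2 (by tauto), k1⟩, rfl, rfl, rfl⟩
  obtain ⟨mo, hmoa, hmob, hmoc⟩ : ∃ m : C.Merge (rep (rep (rep v a b0 b1) b0 q00 q01) b1 q10 q11),
      m.a = ao ∧ m.b = r ∧ m.c = r' :=
    ⟨⟨ao, r, r', (memW _).2 (by tauto), (memW _).2 (by tauto), hao⟩, rfl, rfl, rfl⟩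
  have d1 : m1.Disj mo := by
    unfold Merge.Disj
    rw [hm1b, hm1c, hmob, hmoc]
    exact ⟨(key _ Bq10).1, (key _ Bq10).2.1, (key _ Bq11).1, (key _ Bq11).2.1⟩
  have d2 : m2.Disj mo := by
    unfold Merge.Disj
    rw [hm2b, hm2c, hmob, hmoc]
    exact ⟨(key _ Bq01).1, (key _ Bq01).2.1, (key _ Bq11).1, (key _ Bq11).2.1⟩
  -- the lower vertices
  have mb1 : b1 ∈ rep (rep v a b0 b1) b0 q00 q01 :=
    mem_rep.2 (Or.inr (Or.inr ⟨Ne.symm (sp_ne hb), mem_rep.2 (Or.inr (Or.inl rfl))⟩))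
  have mc1 : c1' ∈ rep (rep v a c0 c1') c0 q00 q10 :=
    mem_rep.2 (Or.inr (Or.inr ⟨Ne.symm (sp_ne hcc), mem_rep.2 (Or.inr (Or.inl rfl))⟩))
  have l1 : m1.low = rep (rep v a b0 b1) b0 q00 q01 := by
    unfold Merge.low
    rw [hm1a, hm1b, hm1c]
    exact hx2P.mrg_rep mb1 h1'
  have l2 : m2.low = rep (rep v a c0 c1') c0 q00 q10 := by
    unfold Merge.low
    rw [hm2a, hm2b, hm2c, htop]
    exact hy2P.mrg_rep mc1 k1
  have lo : mo.low = mrg (rep (rep (rep v a b0 b1) b0 q00 q01) b1 q10 q11) ao r r' := by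
    unfold Merge.low
    rw [hmoa, hmob, hmoc]
  have l1o : m1.low2 mo = mrg (rep (rep v a b0 b1) b0 q00 q01) ao r r' := by
    have : m1.low2 mo = mrg m1.low mo.a mo.b mo.c := rfl
    rw [this, l1, hmoa, hmob, hmoc]
  have nc0 : c0 ∉ v := hvP.sp_not_mem_left ha hcc
  have mem2 : ∀ t ∈ v, t ≠ a → t ∈ rep (rep v a c0 c1') c0 q00 q10 := by
    intro t ht hta
    refine mem_rep.2 (Or.inr (Or.inr ⟨?_, mem_rep.2 (Or.inr (Or.inr ⟨hta, ht⟩))⟩))
    rintro rfl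
    exact nc0 ht
  have lo2 : mo.low2 m2 = mrg (rep (rep v a c0 c1') c0 q00 q10) ao r r' := by
    have : mo.low2 m2 = mrg mo.low m2.a m2.b m2.c := rfl
    rw [this, lo, hm2a, hm2b, hm2c, htop,
      exthx_mrg_rep_comm (key _ Bc1).2.2 (key _ Bq01).1 (key _ Bq01).2.1 (key _ Bq11).1
        (key _ Bq11).2.1]
    exact (hy2P.isPart_mrg (mem2 r hr hra) (mem2 r' hr' hra') hao).mrg_rep
      (mem_mrg.2 (Or.inr ⟨(key _ Bc1).2.1, (key _ Bc1).1, mc1⟩)) k1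
  -- the values of `ext` on the two top edges
  have e1 := ext_low (φ := φ) hwP hc m1
  have e2 := ext_low (φ := φ) hwP hc m2
  rw [l1] at e1
  rw [l2] at e2
  rw [e1, e2]
  have e3 : cc φ m1 (m0 _ ⟨m1⟩) = cc φ m1 m2 * cc φ m2 (m0 _ ⟨m2⟩) :=
    (cc_mul h1 hM hφ hwK hc m1 m2 _).symm
  rw [e3, ← mul_assoc]
  congr 1
  rw [cc_eq h1 hM hφ hwK hc d1 d2]
  unfold dd
  rw [l1, l2, lo, l1o, lo2]
  exact exthx_core h1 hφ hv ha hb hcc h0 h1' k0 k1 hr hr' hra hra' hao hc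

end CutSys
end Claimed.Agent.R152.B
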