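import Claimed.Agent.R152.B.Spare.Cocycle

/-!
# Row 152, module B, sec. 3.3: EXTENSION, old cells and new square cells

Black boxes: `Cut/Part.lean`, `Cut/Coherence.lean`, `Spare/Merge.lean`, `Spare/Cocycle.lean`.   (Ported by helper97 to the `Cut/Defs.lean` on main: `Asc`, `Flat o φ M`, `rep`/`mrg`, classical; see header of `Spare/Merge.lean`.)
Statements FROZEN; aux lemmas welcome.
-/

set_option autoImplicit false
open scoped Classical

namespace Claimed.Agent.R152.B
namespace CutSys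

universe u v w
variable {TT : Type u} {X : Type v} {C : CutSys TT X} {G : Type w} [Group G]
variable {φ : Finset TT → Finset TT → G}

theorem extendSq_asc_two {v x w : Finset TT} (h : C.Exp v x) (h' : C.Exp x w) :
    C.Asc φ v w (φ v x * φ x w) := by
  have := Asc.step (φ := φ) h (Asc.step (φ := φ) h' (Asc.refl w))
  simpa using this

theorem extendSq_asc_three {v x y w : Finset TT} (h : C.Exp v x) (h' : C.Exp x y)
    (h'' : C.Exp y w) : C.Asc φ v w (φ v x * φ x y * φ y w) := by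
  have := Asc.step (φ := φ) h (extendSq_asc_two (φ := φ) h' h'')
  simpa [mul_assoc] using this

/-- A coherent cocycle is locally flat (`SqCell.exp`, `HxCell.exp`, `Asc.two`, `Asc.three`). -/
theorem Coh.locFlat {v1 : Finset TT} (h1 : C.IsPart v1) {M : ℕ} (hφ : C.Coh v1 M φ) :
    C.Flat v1 φ M := by
  constructor
  · intro v hv u u' w hcell hw
    obtain ⟨e1, e2, e3, e4⟩ := hcell.exp (K_isPart h1 hv)
    exact hφ v hv w _ _ hw (extendSq_asc_two e1 e2) (extendSq_asc_two e3 e4)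
  · intro v hv u1 u2 u1' u2' w hcell hw
    obtain ⟨e1, e2, e3, e4, e5, e6⟩ := hcell.exp (K_isPart h1 hv)
    exact hφ v hv w _ _ hw (extendSq_asc_three e1 e2 e3) (extendSq_asc_three e4 e5 e6)

/-- 3.3, new SQ-cell with top `w`, `|w| = M+1`.
Data `(R,a,b,c,a',b',c')`.  `m := (a;b,c)`, `m' := (a';b',c')` are disjoint merges of `w`, `y = w_m`, `x = w_m'`, `v = w_mm'`
(`mrg_insert` + `Finset.insert_comm`).  `ext = φ` on `(v,x)`, `(v,y)` (`ext_of_card_ne`), `ext x w = c(m',m0)`, `ext y w = c(m,m0)`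
(`ext_low`).  `c(m,m0) = c(m,m') c(m',m0)` and `c(m,m') = d(m,m') = φ(v,y)⁻¹ φ(v,x)`. -/
theorem ext_sq {v1 : Finset TT} (h1 : C.IsPart v1) {M : ℕ} (hM : 9 ≤ M) (hφ : C.Coh v1 M φ)
    {v x y w : Finset TT} (hv : v ∈ C.K v1) (hcell : C.SqCell v x y w) (hc : w.card = M + 1) :
    C.ext M φ v x * C.ext M φ x w = C.ext M φ v y * C.ext M φ y w := by
  have hvP : C.IsPart v := K_isPart h1 hv
  obtain ⟨e1, e2, e3, e4⟩ := hcell.exp hvP
  have hxK : x ∈ C.K v1 := K_exp hv e1
  have hwK : w ∈ C.K v1 := K_exp hxK e2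
  have hwP : C.IsPart w := K_isPart h1 hwK
  have cx : x.card ≠ M + 1 := by have := e2.card; omega
  have cy : y.card ≠ M + 1 := by have := e4.card; omega
  obtain ⟨a, ha, a', ha', hne, b, c, b', c', hs, hs', rfl, rfl, rfl⟩ := hcell
  have hxP : C.IsPart (rep v a b c) := hvP.isPart_rep ha hs
  have hyP : C.IsPart (rep v a' b' c') := hvP.isPart_rep ha' hs'
  have ha'x : a' ∈ rep v a b c := mem_rep.2 (Or.inr (Or.inr ⟨hne.symm, ha'⟩))
  have hay : a ∈ rep v a' b' c' := mem_rep.2 (Or.inr (Or.inr ⟨hne, ha⟩))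
  have n1 : a' ≠ b := by rintro rfl; exact hvP.sp_not_mem_left ha hs ha'
  have n2 : a' ≠ c := by rintro rfl; exact hvP.sp_not_mem_right ha hs ha'
  have n3 : a ≠ b' := by rintro rfl; exact hvP.sp_not_mem_left ha' hs' ha
  have n4 : a ≠ c' := by rintro rfl; exact hvP.sp_not_mem_right ha' hs' ha
  have hcomm : rep (rep v a b c) a' b' c' = rep (rep v a' b' c') a b c :=
    rep_comm hne n1 n2 n3 n4
  set w := rep (rep v a b c) a' b' c' with hw
  have hb' : b' ∈ w := mem_rep.2 (Or.inl rfl)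
  have hc' : c' ∈ w := mem_rep.2 (Or.inr (Or.inl rfl))
  have hb : b ∈ w := by rw [hcomm]; exact mem_rep.2 (Or.inl rfl)
  have hcw : c ∈ w := by rw [hcomm]; exact mem_rep.2 (Or.inr (Or.inl rfl))
  let m : C.Merge w := ⟨a, b, c, hb, hcw, hs⟩
  let m' : C.Merge w := ⟨a', b', c', hb', hc', hs'⟩
  have lm : m.low = rep v a' b' c' := by
    show mrg w a b c = _
    rw [hcomm]; exact hyP.mrg_rep hay hs
  have lm' : m'.low = rep v a b c := by
    show mrg w a' b' c' = _
    exact hxP.mrg_rep ha'x hs'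
  have lmm : m.low2 m' = v := by
    show mrg (mrg w a b c) a' b' c' = _
    have : mrg w a b c = rep v a' b' c' := lm
    rw [this]; exact hvP.mrg_rep ha' hs'
  -- disjointness of the two merges
  have hbx : b ∈ rep v a b c := mem_rep.2 (Or.inl rfl)
  have hcx : c ∈ rep v a b c := mem_rep.2 (Or.inr (Or.inl rfl))
  have d1 : b ≠ b' := by rintro rfl; exact hxP.sp_not_mem_left ha'x hs' hbx
  have d2 : b ≠ c' := by rintro rfl; exact hxP.sp_not_mem_right ha'x hs' hbx
  have d3 : c ≠ b' := by rintro rfl; exact hxP.sp_not_mem_left ha'x hs' hcx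
  have d4 : c ≠ c' := by rintro rfl; exact hxP.sp_not_mem_right ha'x hs' hcx
  have hd : m.Disj m' := ⟨d1, d2, d3, d4⟩
  have E1 : C.ext M φ v (rep v a b c) = φ v (rep v a b c) := ext_of_card_ne cx
  have E2 : C.ext M φ v (rep v a' b' c') = φ v (rep v a' b' c') := ext_of_card_ne cy
  have E3 : C.ext M φ (rep v a b c) w = cc φ m' (m0 w ⟨m'⟩) := by
    rw [← lm']; exact ext_low hwP hc m'
  have E4 : C.ext M φ (rep v a' b' c') w = cc φ m (m0 w ⟨m⟩) := by
    rw [← lm]; exact ext_low hwP hc m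
  have E5 : cc φ m (m0 w ⟨m⟩) = cc φ m m' * cc φ m' (m0 w ⟨m'⟩) :=
    (cc_mul h1 hM hφ hwK hc m m' _).symm
  have E6 : cc φ m m' = (φ v (rep v a' b' c'))⁻¹ * φ v (rep v a b c) := by
    rw [cc_eq_dd h1 hM hφ hwK hc hd]
    show (φ (m.low2 m') m.low)⁻¹ * φ (m.low2 m') m'.low = _
    rw [lmm, lm, lm']
  rw [E1, E2, E3, E4, E5, E6]
  group

end CutSys
end Claimed.Agent.R152.B
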