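import Claimed.Agent.R152.B.Spare.ExtendSq
import Claimed.Agent.R152.B.Spare.ExtendHx
import Claimed.Agent.R152.B.Spare.Conn

/-!
# Row 152, module B, sec. 3.3 (assembly) and 3.4: THEOREM SC

Black boxes: `Cut/Coherence.lean` (2.12, `Asc.congr`), `Cut/Potential.lean` (2.13), `Spare/ExtendSq.lean`, `Spare/ExtendHx.lean`.
(Ported by helper97 to the `Cut/Defs.lean` on main: `Asc`, `Flat o φ M`, `rep`/`mrg`, classical; see header of `Spare/Merge.lean`.)
Statements FROZEN; auxiliary lemmas welcome.
-/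

set_option autoImplicit false
open scoped Classical

namespace Claimed.Agent.R152.B
namespace CutSys

universe u v w
variable {TT : Type u} {X : Type v} {C : CutSys TT X} {G : Type w} [Group G]
variable {φ : Finset TT → Finset TT → G}

/-- local flatness only depends on the values of the cocycle on the edges whose top has at most `M` tiles. -/
theorem SC_flat_congr {v1 : Finset TT} (h1 : C.IsPart v1) {M : ℕ}
    {φ φ' : Finset TT → Finset TT → G} (hφ : C.Flat v1 φ M)
    (he : ∀ x y, y.card ≤ M → φ' x y = φ x y) : C.Flat v1 φ' M where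
  sq := by
    intro v hv u u' w hcell hw
    obtain ⟨x1, x2, y1, y2⟩ := hcell.exp (K_isPart h1 hv)
    have c1 := x2.card
    have c2 := y2.card
    rw [he v u (by omega), he u w hw, he v u' (by omega), he u' w hw]
    exact hφ.sq v hv u u' w hcell hw
  hx := by
    intro v hv u1 u2 u1' u2' w hcell hw
    obtain ⟨x1, x2, x3, y1, y2, y3⟩ := hcell.exp (K_isPart h1 hv)
    have c1 := x2.card
    have c2 := x3.card
    have c3 := y2.card
    have c4 := y3.card
    rw [he v u1 (by omega), he u1 u2 (by omega), he u2 w hw, he v u1' (by omega),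
      he u1' u2' (by omega), he u2' w hw]
    exact hφ.hx v hv u1 u2 u1' u2' w hcell hw

/-- 2.12 in the form used in this section. -/
theorem SC_coh_of_flat {v1 : Finset TT} (h1 : C.IsPart v1) {M : ℕ} (hφ : C.Flat v1 φ M) :
    C.Coh v1 M φ :=
  fun _ hv _ _ _ hw H H' => coherence h1 hφ hv hw H H'

/-- the extension is locally flat up to height `M + 1`. -/
theorem SC_ext_flat {v1 : Finset TT} (h1 : C.IsPart v1) {M : ℕ} (hM : 9 ≤ M) (hφ : C.Coh v1 M φ) :
    C.Flat v1 (C.ext M φ) (M + 1) where
  sq := by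
    intro v hv u u' w hcell hw
    rcases Nat.lt_or_ge M w.card with h | h
    · exact ext_sq h1 hM hφ hv hcell (by omega)
    · exact (SC_flat_congr h1 (Coh.locFlat h1 hφ)
        (fun x y hy => ext_of_card_ne (C := C) (φ := φ) (u := x) (by omega))).sq v hv u u' w hcell h
  hx := by
    intro v hv u1 u2 u1' u2' w hcell hw
    rcases Nat.lt_or_ge M w.card with h | h
    · exact ext_hx h1 hM hφ hv hcell (by omega)
    · exact (SC_flat_congr h1 (Coh.locFlat h1 hφ)
        (fun x y hy => ext_of_card_ne (C := C) (φ := φ) (u := x) (by omega))).hx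
          v hv u1 u2 u1' u2' w hcell h

/-- **3.3 EXTENSION.**  Cells with top of at most `M` tiles: `ext = φ` on all their edges (`ext_of_card_ne`, cardinalities from
`SqCell.exp`/`HxCell.exp` + `Exp.card`) and `Coh.locFlat`.  Cells with top of `M+1` tiles: `ext_sq`, `ext_hx`.  Then 2.12. -/
theorem ext_coh {v1 : Finset TT} (h1 : C.IsPart v1) {M : ℕ} (hM : 9 ≤ M) (hφ : C.Coh v1 M φ) :
    C.Coh v1 (M + 1) (C.ext M φ) :=
  SC_coh_of_flat h1 (SC_ext_flat h1 hM hφ)

variable (C) in
/-- the tower of extensions. -/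
noncomputable def SCtower (N : ℕ) (φ : Finset TT → Finset TT → G) : ℕ → Finset TT → Finset TT → G
  | 0 => φ
  | k + 1 => C.ext (N + k) (SCtower N φ k)

theorem SCtower_coh {v1 : Finset TT} (h1 : C.IsPart v1) {N : ℕ} (hN : 9 ≤ N)
    (hφ : C.Flat v1 φ N) (k : ℕ) : C.Coh v1 (N + k) (C.SCtower N φ k) := by
  induction k with
  | zero => exact SC_coh_of_flat h1 hφ
  | succ k ih => exact ext_coh h1 (le_trans hN (Nat.le_add_right N k)) ih

theorem SCtower_eq {N : ℕ} (k : ℕ) (x y : Finset TT) (hy : y.card ≤ N + k) :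
    C.SCtower N φ k x y = C.SCtower N φ (y.card - N) x y := by
  induction k with
  | zero =>
    have : y.card - N = 0 := by omega
    rw [this]
  | succ k ih =>
    rcases Nat.lt_or_ge (N + k) y.card with h | h
    · have : y.card - N = k + 1 := by omega
      rw [this]
    · rw [← ih h]
      exact ext_of_card_ne (by omega)

/-- **3.4 THEOREM SC.**  `N ≥ 9`, `φ` locally flat up to height `N`  ==>  `φ` has a potential on `K_{≤N}`.
Proof: `Φ 0 = φ`, `Φ (k+1) = ext (N+k) (Φ k)`; `Coh (N+k) (Φ k)` by induction (2.12 for `k = 0`, `ext_coh`).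
`φ∞ v w := Φ (w.card - N) v w`.  `Φ k x y = φ∞ x y` whenever `y.card ≤ N + k` (`ext_of_card_ne`), so `Coh M φ∞` for all `M`
(`Asc.congr`), and `φ∞ = φ` on edges with `w.card ≤ N`.  Apply 2.13. -/
theorem theoremSC {v1 : Finset TT} (h1 : C.IsPart v1) {N : ℕ} (hN : 9 ≤ N)
    (hφ : C.Flat v1 φ N) :
    ∃ f : Finset TT → G, f v1 = 1 ∧
      ∀ v ∈ C.K v1, ∀ w, C.Exp v w → w.card ≤ N → f w = f v * φ v w := by
  have hflat : ∀ M, C.Flat v1 (fun x y => C.SCtower N φ (y.card - N) x y) M := by
    intro M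
    have h := Coh.locFlat h1 (SCtower_coh h1 hN hφ M)
    have h' : C.Flat v1 (C.SCtower N φ M) M :=
      { sq := fun v hv u u' w hc hw => h.sq v hv u u' w hc (by omega)
        hx := fun v hv u1 u2 u1' u2' w hc hw => h.hx v hv u1 u2 u1' u2' w hc (by omega) }
    exact SC_flat_congr h1 h' (fun x y hy => (SCtower_eq M x y (by omega)).symm)
  obtain ⟨f, hf1, hf⟩ := potential h1 hflat
  refine ⟨f, hf1, fun v hv w he hw => ?_⟩
  rw [hf v hv w he]
  have : w.card - N = 0 := by omega
  simp only [this]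
  rfl

end CutSys
end Claimed.Agent.R152.B
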