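import Claimed.Agent.R152.B.Spare.Merge

/-!
# Row 152, module B, sec. 3.1: TRIANGLE

Black boxes: `Cut/Part.lean`, `Cut/Coherence.lean` (`Hol.two`), `Spare/Merge.lean`.   Statements FROZEN; auxiliary lemmas welcome.
-/

open scoped Classical

namespace Claimed.Agent.R152.B
namespace CutSys

universe u v w
variable {TT : Type u} {X : Type v} {C : CutSys TT X} {G : Type w} [Group G]
variable {φ : Finset TT → Finset TT → G}

theorem dd_inv {w : Finset TT} (hw : C.IsPart w) {m m' : C.Merge w} (h : m.Disj m') :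
    dd φ m m' * dd φ m' m = 1 := by
  unfold dd
  rw [Merge.low2_comm hw h.symm]
  group

/-- the only use of coherence: two ascending paths of length two with the same end points -/
theorem Triangle_coh_two {v1 : Finset TT} {M : ℕ} (hφ : C.Coh v1 M φ) {z x y t : Finset TT}
    (hz : z ∈ C.K v1) (ht : t.card ≤ M) (h1 : C.Exp z x) (h2 : C.Exp x t) (h3 : C.Exp z y)
    (h4 : C.Exp y t) : φ z x * φ x t = φ z y * φ y t := by
  have h := hφ z hz t _ _ ht (Asc.step h1 (Asc.step h2 (Asc.refl t)))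
    (Asc.step h3 (Asc.step h4 (Asc.refl t)))
  simpa using h

/-- `w_{m m' m''}` -/
noncomputable def Triangle_low3 {w : Finset TT} (m m' m'' : C.Merge w) : Finset TT :=
  mrg (m.low2 m') m''.a m''.b m''.c

theorem Triangle_a_ne {w : Finset TT} (hw : C.IsPart w) (m : C.Merge w) {t : TT} (ht : t ∈ w) :
    m.a ≠ t := by
  rintro rfl
  exact not_mem_of_sp hw m.hb m.sp ht

theorem Triangle_exp_low3 {w : Finset TT} (hw : C.IsPart w) {m m' m'' : C.Merge w}
    (h : m.Disj m') (h' : m.Disj m'') (h'' : m'.Disj m'') :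
    C.Exp (Triangle_low3 m m' m'') (m.low2 m') := by
  have hP : C.IsPart (m.low2 m') :=
    (Merge.exp_low2 hw h).1.isPart_left ((Merge.exp_low hw m).isPart_left hw)
  refine exp_mrg hP ?_ ?_ m''.sp
  · exact mem_mrg_of_mem (mem_mrg_of_mem m''.hb h'.1.symm h'.2.2.1.symm) h''.1.symm h''.2.2.1.symm
  · exact mem_mrg_of_mem (mem_mrg_of_mem m''.hc h'.2.1.symm h'.2.2.2.symm) h''.2.1.symm
      h''.2.2.2.symm

theorem Triangle_low3_swap_outer {w : Finset TT} (hw : C.IsPart w) (m m' m'' : C.Merge w) :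
    Triangle_low3 m m' m'' = Triangle_low3 m m'' m' :=
  mrg_comm (Triangle_a_ne hw m' m''.hb) (Triangle_a_ne hw m' m''.hc)
    (Triangle_a_ne hw m'' m'.hb) (Triangle_a_ne hw m'' m'.hc)

theorem Triangle_low3_swap_inner {w : Finset TT} (hw : C.IsPart w) {m m' : C.Merge w}
    (h : m.Disj m') (m'' : C.Merge w) : Triangle_low3 m m' m'' = Triangle_low3 m' m m'' := by
  unfold Triangle_low3
  rw [Merge.low2_comm hw h]

/-- **3.1 TRIANGLE.**  `m1,m2,m3` pairwise disjoint merges of `w`, `|w| = M+1`, `φ` coherent up to height `M`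
==> `d(m1,m2) d(m2,m3) = d(m1,m3)`.

Proof: `z = w_{m1m2m3}` (`mrg` three times; all orders agree by `mrg_comm`), `u_i = w_{mi}`, `u_ij = w_{mi mj}`.
All of `z → u_ij → u_i` are `Exp`-edges (`exp_mrg`), `z ∈ K` (`K_exp'`), `|u_i| = M`.
By `Coh` (paths `z,u_ij,u_i` and `z,u_ik,u_i`, `Hol.two`): `A_i := φ(z,u_ij) φ(u_ij,u_i)` does not depend on `j`, and
`d(mi,mj) = A_i⁻¹ A_j`. -/
theorem dd_triangle {v1 w : Finset TT} (h1 : C.IsPart v1) {M : ℕ} (hφ : C.Coh v1 M φ)
    (hw : w ∈ C.K v1) (hc : w.card = M + 1) {m1 m2 m3 : C.Merge w}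
    (h12 : m1.Disj m2) (h23 : m2.Disj m3) (h13 : m1.Disj m3) :
    dd φ m1 m2 * dd φ m2 m3 = dd φ m1 m3 := by
  have hwP : C.IsPart w := K_isPart h1 hw
  -- the bottom vertex and its three upper neighbours
  have e12 : C.Exp (Triangle_low3 m1 m2 m3) (m1.low2 m2) := Triangle_exp_low3 hwP h12 h13 h23
  have e13 : C.Exp (Triangle_low3 m1 m2 m3) (m1.low2 m3) := by
    rw [Triangle_low3_swap_outer hwP]
    exact Triangle_exp_low3 hwP h13 h12 h23.symm
  have e23 : C.Exp (Triangle_low3 m1 m2 m3) (m2.low2 m3) := by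
    rw [Triangle_low3_swap_inner hwP h12, Triangle_low3_swap_outer hwP]
    exact Triangle_exp_low3 hwP h23 h12.symm h13.symm
  have hzK : Triangle_low3 m1 m2 m3 ∈ C.K v1 :=
    K_exp_left (K_exp_left (K_exp_left hw (Merge.exp_low hwP m1)) (Merge.exp_low2 hwP h12).1) e12
  have hcard : ∀ m : C.Merge w, m.low.card ≤ M := by
    intro m
    have := (Merge.exp_low hwP m).card
    omega
  have E1 := Triangle_coh_two hφ hzK (hcard m1) e12 (Merge.exp_low2 hwP h12).1 e13
    (Merge.exp_low2 hwP h13).1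
  have E2 := Triangle_coh_two hφ hzK (hcard m2) e12 (Merge.exp_low2 hwP h12).2 e23
    (Merge.exp_low2 hwP h23).1
  have E3 := Triangle_coh_two hφ hzK (hcard m3) e13 (Merge.exp_low2 hwP h13).2 e23
    (Merge.exp_low2 hwP h23).2
  unfold dd
  rw [eq_inv_mul_of_mul_eq E1, eq_inv_mul_of_mul_eq E2, eq_inv_mul_of_mul_eq E3]
  group

end CutSys
end Claimed.Agent.R152.B
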